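import Mathlib
import Vale.Agent.P321.Main

/-
P321, Q1: worst-case trace reconstruction needs superpolynomially many traces at every fixed
deletion probability.
-/

open Vale.Agent.P321

namespace Vale.Agent.Results.P321.Superpolynomial

theorem result : ∀ q : ℝ, 0 < q → q < 1 →
    (∀ n : ℕ, ∃ m : ℕ, Reconstructs q n m) ∧
      ∀ C : ℕ, ∃ N : ℕ, ∀ n ≥ N, n ^ C ≤ sampleComplexity q n :=
  fun _ hq0 hq1 => ⟨exists_reconstructs hq0.le hq1, superpolynomial hq0 hq1⟩

end Vale.Agent.Results.P321.Superpolynomial
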